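import Vale.Agent.P011Z.Cl.Br0.Form

/-!
Stable lines, real places and local indices.
-/

open Matrix Module

noncomputable section

namespace Vale.Agent.P011Z.Cl.Br0x

variable {n : ℕ} {H : Subgroup Gq} {P : Gq → Matrix (Fin n) (Fin n) Om} {E A : Type} [Field E]
  [Algebra E Om] [Ring A] [Algebra E A] [FiniteDimensional E A]
  {g : A →ₐ[E] Matrix (Fin n) (Fin n) Om}

theorem single_map {R R' : Type} [Field R] [Field R'] (s : R →+* R') (j : Fin n) :
    s ∘ (Pi.single j 1 : Fin n → R) = Pi.single j 1 := by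
  funext k
  by_cases hk : k = j
  · subst hk; simp
  · simp [hk]

/-- A splitting gives a stable line. -/
theorem item1 (hn : 0 < n) (hA : finrank E A = n * n)
    (hsp : Submodule.span Om (Set.range g) = ⊤)
    (hg : ∀ σ ∈ H, ∀ a, P σ * (g a).map (rh σ) = g a * P σ) {E' : Type} [Field E'] [Algebra E E']
    (j' : E' →ₐ[E] Om) (F : A →ₐ[E] Matrix (Fin n) (Fin n) E') :
    ∃ y : Fin n → Om, y ≠ 0 ∧ ∀ σ ∈ H, (∀ z, σ (j' z) = j' z) →
      ∃ t : Om, P σ *ᵥ (rh σ ∘ y) = t • y := by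
  let F' : A →ₐ[E] Matrix (Fin n) (Fin n) Om := j'.mapMatrix.comp F
  obtain ⟨-, -, -, -, -, hF'⟩ := sn hn hA g F' hsp
  obtain ⟨S, S', h1, h2, h3, -⟩ := sn hn hA F' g hF'
  refine ⟨S *ᵥ Pi.single ⟨0, hn⟩ 1, fun h0 => ?_, fun σ hσ hz => ?_⟩
  · have h4 := congrArg (fun y => (S' *ᵥ y) ⟨0, hn⟩) h0
    simp only [Matrix.mulVec_mulVec, h2, Matrix.one_mulVec, Matrix.mulVec_zero,
      Pi.single_eq_same, Pi.zero_apply] at h4
    exact one_ne_zero h4
  · obtain ⟨t, ht⟩ := cmp hF' h2 h3 (rh σ) (P := 1) (P' := 1) (Q := P σ) (one_mul 1)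
      (fun a => by
        rw [one_mul, mul_one]
        ext i j
        exact hz _) (hg σ hσ)
    refine ⟨t, ?_⟩
    have h4 : P σ * S.map (rh σ) = t • S := by
      have h5 := congrArg (S * ·) ht
      rwa [← mul_assoc, ← mul_assoc, h1, one_mul, mul_smul_comm, mul_one] at h5
    rw [map_mv, single_map, Matrix.mulVec_mulVec, h4, Matrix.smul_mulVec]

omit [FiniteDimensional E A] in
/-- A real structure gives a splitting over the reals. -/
theorem item2 {ι : Om →+* ℂ} {γ : Gq} (hγ : Cj ι γ) [Algebra E ℝ]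
    (hψ : ∀ x, ι (algebraMap E Om x) = algebraMap E ℝ x) {u : (Fin n → Om) → Fin n → Om}
    (hu : Semi γ u) (huu : ∀ y, u (u y) = y) (hg : ∀ a y, u (g a *ᵥ y) = g a *ᵥ u y) :
    Nonempty (A →ₐ[E] Matrix (Fin n) (Fin n) ℝ) := by
  obtain ⟨i, hi⟩ := IsAlgClosed.exists_pow_nat_eq (-1 : Om) two_pos
  have hi0 : i ≠ 0 := by
    rintro rfl
    norm_num at hi
  have hγi : γ i = -i := by
    have h1 : (γ i - i) * (γ i + i) = 0 := by
      have h2 : γ i ^ 2 = -1 := by rw [← map_pow, hi, map_neg, map_one]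
      linear_combination h2 - hi
    refine eq_neg_of_add_eq_zero_left ((mul_eq_zero.mp h1).resolve_left fun h3 => ?_)
    have h4 := hγ.real.mp (sub_eq_zero.mp h3)
    have h5 : (ι i ^ 2).re = -1 := by rw [← map_pow, hi, map_neg, map_one]; simp
    rw [pow_two, Complex.mul_re, h4] at h5
    nlinarith [mul_self_nonneg (ι i).re]
  have hspan : ⊤ ≤ Submodule.span Om {y : Fin n → Om | u y = y} := by
    intro y _
    have h1 : y = (2⁻¹ : Om) • (y + u y) + (2⁻¹ * i⁻¹ : Om) • (i • y + u (i • y)) := by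
      rw [hu.smul, hγi]
      match_scalars
      · field_simp
        ring
      · field_simp
        ring
    rw [h1]
    refine Submodule.add_mem _ (Submodule.smul_mem _ _ (Submodule.subset_span ?_))
      (Submodule.smul_mem _ _ (Submodule.subset_span ?_))
    · change u _ = _
      rw [hu.add, huu, add_comm]
    · change u _ = _
      rw [hu.add, huu, add_comm]
  obtain ⟨s, hs1, hs2, hs3⟩ := exists_linearIndependent Om {y : Fin n → Om | u y = y}
  let b0 : Basis s Om (Fin n → Om) := Basis.mk hs3 (by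
    rw [Subtype.range_coe, hs2]
    exact hspan)
  let b : Basis (Fin n) Om (Fin n → Om) := b0.reindex (b0.indexEquiv (Pi.basisFun Om (Fin n)))
  have hb : ∀ k, u (b k) = b k := by
    intro k
    rw [Basis.reindex_apply, Basis.mk_apply]
    exact hs1 (Subtype.coe_prop _)
  let _ : Algebra E ℂ := (ι.comp (algebraMap E Om)).toAlgebra
  let ι' : Om →ₐ[E] ℂ := { ι with commutes' := fun _ => rfl }
  let ρ : ℝ →ₐ[E] ℂ := { Complex.ofRealHom with commutes' := fun x => (hψ x).symm }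
  let G : A →ₐ[E] Matrix (Fin n) (Fin n) Om :=
    (((LinearMap.toMatrixAlgEquiv b).toAlgHom.comp
      (Matrix.toLinAlgEquiv' (n := Fin n) (R := Om)).toAlgHom).restrictScalars E).comp g
  have hG : ∀ a k l, G a k l = b.repr (g a *ᵥ b l) k := fun a k l =>
    LinearMap.toMatrixAlgEquiv_apply b _ k l
  refine lift_hom ρ (ι'.mapMatrix.comp G) fun a k l => ⟨(ι (G a k l)).re, ?_⟩
  have h1 : γ (G a k l) = G a k l := by
    have h2 : u (g a *ᵥ b l) = ∑ k, γ (b.repr (g a *ᵥ b l) k) • b k := by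
      conv_lhs => rw [← b.sum_repr (g a *ᵥ b l), hu.sum]
      exact Finset.sum_congr rfl fun k _ => by rw [hu.smul, hb]
    rw [hg, hb] at h2
    rw [hG]
    conv_rhs => rw [h2, b.repr_sum_self]
  exact Complex.ext rfl (hγ.real.mp h1).symm

theorem exists_res {Ω : Type} [Field Ω] [CharZero Ω] (κ : Om →+* Ω) (s : Ω →+* Ω) :
    ∃ τ : Gq, ∀ x, s (κ x) = κ (τ x) := by
  let _ : Algebra Om Ω := κ.toAlgebra
  exact ⟨s.toRatAlgHom.restrictNormal' Om, fun x =>
    (s.toRatAlgHom.restrictNormal_commutes Om x).symm⟩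

/-- The norm equation at a finite place. -/
theorem item3 [CharZero E] (hn : 0 < n) (h : Co H P)
    (hj : ∀ y, Fx H y ↔ ∃ x : E, algebraMap E Om x = y) (hA : finrank E A = n * n)
    (hsp : Submodule.span Om (Set.range g) = ⊤)
    (hg : ∀ σ ∈ H, ∀ a, P σ * (g a).map (rh σ) = g a * P σ) {p : ℕ}
    (Q : MvPolynomial (Fin n) Om)
    (hQ1 : ∀ σ ∈ H, ∃ l : Om, ∀ x, MvPolynomial.eval (P σ *ᵥ (rh σ ∘ x)) Q =
      l * σ (MvPolynomial.eval x Q))
    (hQ2 : ∀ (t : Om) x, MvPolynomial.eval (t • x) Q = t ^ p * MvPolynomial.eval x Q)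
    (hQ3 : ∃ x, MvPolynomial.eval x Q ≠ 0) {W : Type} [Field W] [Algebra E W] (σ : W ≃+* W)
    (hσ : ∀ x, σ (algebraMap E W x) = algebraMap E W x) (F : A →ₐ[E] Matrix (Fin n) (Fin n) W)
    {U : Matrix (Fin n) (Fin n) W} {c : W} {q : ℕ}
    (hF : ∀ a, U * (F a).map (σ : W →+* W) = F a * U)
    (hU : ∀ y : Fin n → W, (fun y => U *ᵥ (σ ∘ y))^[q] y = c • y) :
    ∃ l : W, ∏ i ∈ Finset.range q, σ^[i] l = c ^ p := by
  have hcW : CharZero W := charZero_of_injective_algebraMap (algebraMap E W).injective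
  obtain ⟨Ω, _, _, _⟩ : ∃ (Ω : Type) (_ : Field Ω) (_ : Algebra W Ω), IsAlgClosure W Ω :=
    ⟨AlgebraicClosure W, inferInstance, inferInstance, inferInstance⟩
  have hcΩ : CharZero Ω := charZero_of_injective_algebraMap (algebraMap W Ω).injective
  have : IsAlgClosed Ω := IsAlgClosure.isAlgClosed W
  let _ : Algebra E Ω := ((algebraMap W Ω).comp (algebraMap E W)).toAlgebra
  have : IsScalarTower E W Ω := IsScalarTower.of_algebraMap_eq fun _ => rfl
  have : Algebra.IsAlgebraic E Om := Algebra.IsAlgebraic.tower_top (K := ℚ) E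
  let κ : Om →ₐ[E] Ω := IsAlgClosed.lift
  let ρ : W →ₐ[E] Ω := IsScalarTower.toAlgHom E W Ω
  let g' : A →ₐ[E] Matrix (Fin n) (Fin n) Ω := κ.mapMatrix.comp g
  let F' : A →ₐ[E] Matrix (Fin n) (Fin n) Ω := ρ.mapMatrix.comp F
  have hsp' : Submodule.span Ω (Set.range g') = ⊤ := by
    have h1 : ∀ X : Matrix (Fin n) (Fin n) Om, X ∈ Submodule.span Om (Set.range g) →
        κ.mapMatrix X ∈ Submodule.span Ω (Set.range g') := by
      intro X hX
      induction hX using Submodule.span_induction with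
      | mem x hx =>
        obtain ⟨x, rfl⟩ := hx
        exact Submodule.subset_span ⟨x, rfl⟩
      | zero => rw [map_zero]; exact Submodule.zero_mem _
      | add a b _ _ ha hb => rw [map_add]; exact Submodule.add_mem _ ha hb
      | smul t a _ ha =>
        have h2 : κ.mapMatrix (t • a) = κ t • κ.mapMatrix a := by
          ext i j
          exact map_mul κ _ _
        rw [h2]
        exact Submodule.smul_mem _ _ ha
    rw [Submodule.eq_top_iff']
    intro X
    rw [Matrix.matrix_eq_sum_single X]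
    refine Submodule.sum_mem _ fun i _ => Submodule.sum_mem _ fun j _ => ?_
    have h2 : Matrix.single i j (X i j) = X i j • κ.mapMatrix (Matrix.single i j 1) := by
      rw [AlgHom.mapMatrix_apply, Matrix.map_single _ _ _ κ, map_one, Matrix.smul_single,
        smul_eq_mul, mul_one]
    rw [h2]
    exact Submodule.smul_mem _ _ (h1 _ (by rw [hsp]; exact Submodule.mem_top))
  obtain ⟨S, S', h1, h2, h3, -⟩ := sn hn hA g' F' hsp'
  let M : (Fin n → Ω) → Ω := fun y => MvPolynomial.eval₂Hom (κ : Om →+* Ω) (S' *ᵥ y) Q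
  have hM : ∀ (t : Ω) y, M (t • y) = t ^ p * M y := by
    intro t y
    simp only [M]
    rw [Matrix.mulVec_smul, tr_hom _ Q p hQ2]
  have key : ∀ (s : Ω →+* Ω) (Y : Matrix (Fin n) (Fin n) Ω),
      (∀ x, s (algebraMap E Ω x) = algebraMap E Ω x) → (∀ a, Y * (F' a).map s = F' a * Y) →
      ∃ l : Ω, ∀ y, M (Y *ᵥ (s ∘ y)) = l * s (M y) := by
    intro s Y hs hY
    obtain ⟨τ, hτ⟩ := exists_res (κ : Om →+* Ω) s
    have hτH : τ ∈ H := h.opn.mem fun x hx => by
      obtain ⟨x, rfl⟩ := (hj x).1 hx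
      apply (κ : Om →+* Ω).injective
      rw [← hτ]
      change s (κ _) = κ _
      rw [κ.commutes, hs]
    obtain ⟨l, hl⟩ := hQ1 τ hτH
    obtain ⟨t, ht⟩ := cmp hsp' h2 h3 s (P := (P τ).map κ) (P' := (P τ)⁻¹.map κ) (Q := Y)
      (by rw [← Matrix.map_mul, h.inv τ hτH, Matrix.map_one _ (map_zero _) (map_one _)])
      (fun a => by
        have h4 : (g' a).map s = ((g a).map (rh τ)).map κ := by
          ext i j
          exact hτ _
        rw [h4, ← Matrix.map_mul, hg τ hτH, Matrix.map_mul]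
        rfl) hY
    refine ⟨t ^ p * κ l, fun y => ?_⟩
    have h4 : S' *ᵥ (Y *ᵥ (s ∘ y)) = t • ((P τ).map κ *ᵥ (s ∘ (S' *ᵥ y))) := by
      rw [← Matrix.smul_mulVec, ← ht, map_mv, Matrix.mulVec_mulVec, Matrix.mulVec_mulVec,
        mul_assoc _ (S.map s), ← Matrix.map_mul, h1, Matrix.map_one _ (map_zero _) (map_one _),
        mul_one]
    simp only [M]
    rw [h4, tr_hom _ Q p hQ2, mul_assoc]
    exact congrArg _ (tr_semi (κ : Om →+* Ω) s (rh τ) hτ τ.surjective Q (P τ) l hl _)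
  obtain ⟨x0, hx0⟩ := hQ3
  obtain ⟨y0, hy0⟩ : ∃ y0 : Fin n → W, M (algebraMap W Ω ∘ y0) ≠ 0 := by
    refine tr_ne (κ : Om →+* Ω) (algebraMap W Ω) Q S' (S *ᵥ (κ ∘ x0)) ?_
    rw [Matrix.mulVec_mulVec, h2, Matrix.one_mulVec]
    have h4 := MvPolynomial.map_eval₂Hom (RingHom.id Om) x0 (κ : Om →+* Ω) Q
    intro h5
    exact hx0 ((κ : Om →+* Ω).injective ((h4.trans h5).trans (map_zero _).symm))
  have hrat : ∀ y : Fin n → W, ∃ l : W, algebraMap W Ω l =
      M (algebraMap W Ω ∘ y) / M (algebraMap W Ω ∘ y0) := by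
    intro y
    refine (InfiniteGalois.mem_range_algebraMap_iff_fixed _).2 fun s => ?_
    obtain ⟨l, hl⟩ := key (s : Ω →+* Ω) 1 (fun x => s.commutes (algebraMap E W x)) fun a => by
      rw [one_mul, mul_one]
      ext i j
      exact s.commutes _
    have h4 : ∀ y : Fin n → W, M (algebraMap W Ω ∘ y) = l * s (M (algebraMap W Ω ∘ y)) := by
      intro y
      have h5 : (s : Ω →+* Ω) ∘ (algebraMap W Ω ∘ y) = algebraMap W Ω ∘ y :=
        funext fun i => s.commutes _
      have h6 := hl (algebraMap W Ω ∘ y)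
      rwa [h5, Matrix.one_mulVec] at h6
    have hl0 : l ≠ 0 := by
      rintro rfl
      exact hy0 (by rw [h4, zero_mul])
    rw [map_div₀]
    conv_rhs => rw [h4 y, h4 y0, mul_div_mul_left _ _ hl0]
  let s : Ω →+* Ω := IsAlgClosure.equivOfEquiv Ω Ω σ
  have hs : ∀ w, s (algebraMap W Ω w) = algebraMap W Ω (σ w) := fun w =>
    IsAlgClosure.equivOfEquiv_algebraMap Ω Ω σ w
  obtain ⟨l0, hl0⟩ := key s (U.map (algebraMap W Ω))
    (fun x => (hs (algebraMap E W x)).trans (congrArg _ (hσ x))) fun a => by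
      have h4 : (F' a).map s = ((F a).map (σ : W →+* W)).map (algebraMap W Ω) := by
        ext i j
        exact hs _
      rw [h4, ← Matrix.map_mul, hF, Matrix.map_mul]
      rfl
  have h5 : ∀ y : Fin n → W, M (algebraMap W Ω ∘ (U *ᵥ (σ ∘ y))) =
      l0 * s (M (algebraMap W Ω ∘ y)) := by
    intro y
    rw [← hl0, map_mv]
    congr 2
    exact funext fun i => (hs _).symm
  obtain ⟨l, hl⟩ := hrat (U *ᵥ (σ ∘ y0))
  have h6 : ∀ i : ℕ, M (algebraMap W Ω ∘ (fun y => U *ᵥ (σ ∘ y))^[i] y0) =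
      algebraMap W Ω (∏ k ∈ Finset.range i, σ^[k] l) * M (algebraMap W Ω ∘ y0) := by
    intro i
    induction i with
    | zero => simp
    | succ i ih =>
      rw [Function.iterate_succ_apply', h5, ih, map_mul, hs, Finset.prod_range_succ', map_mul,
        map_prod σ]
      simp only [Function.iterate_succ_apply', Function.iterate_zero_apply]
      rw [hl, h5, mul_assoc, div_mul_cancel₀ _ hy0]
      ring
  refine ⟨l, (algebraMap W Ω).injective ?_⟩
  have h7 := h6 q
  have h8 : algebraMap W Ω ∘ (c • y0) = algebraMap W Ω c • (algebraMap W Ω ∘ y0) :=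
    funext fun i => map_mul _ _ _
  rw [hU, h8, hM] at h7
  rw [map_pow]
  exact (mul_right_cancel₀ hy0 h7).symm

end Vale.Agent.P011Z.Cl.Br0x

end
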