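import Vale.Agent.P011.W.Part

/-!
Forms of a matrix algebra: conjugacy of splittings, comparison of semilinear maps, simplicity.
-/

open Matrix Module

noncomputable section

namespace Vale.Agent.P011Z.Cl.Br0x

open Vale.Agent.P011.W

section sn

variable {E A Ω : Type} [Field E] [Ring A] [Algebra E A] [Field Ω] [Algebra E Ω] {n : ℕ}

omit [Field E] [Ring A] [Algebra E A] [Algebra E Ω] in
/-- A matrix which commutes with a spanning set is a scalar. -/
theorem comm_scalar {F : A → Matrix (Fin n) (Fin n) Ω}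
    (h : Submodule.span Ω (Set.range F) = ⊤) {X : Matrix (Fin n) (Fin n) Ω}
    (hX : ∀ a, F a * X = X * F a) : ∃ t : Ω, X = t • (1 : Matrix (Fin n) (Fin n) Ω) := by
  have h1 : ∀ Y : Matrix (Fin n) (Fin n) Ω, Y * X = X * Y := by
    intro Y
    have hY : Y ∈ Submodule.span Ω (Set.range F) := by
      rw [h]; exact Submodule.mem_top
    induction hY using Submodule.span_induction with
    | mem x hx => obtain ⟨x, rfl⟩ := hx; exact hX x
    | zero => rw [zero_mul, mul_zero]
    | add a b _ _ ha hb => rw [add_mul, mul_add, ha, hb]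
    | smul c a _ ha => rw [smul_mul_assoc, mul_smul_comm, ha]
  have h2 : X ∈ Set.center (Matrix (Fin n) (Fin n) Ω) := by
    rw [Semigroup.mem_center_iff]
    exact h1
  rw [Matrix.center_eq_range] at h2
  obtain ⟨c, hc⟩ := h2
  refine ⟨c, ?_⟩
  rw [← hc, Matrix.scalar_apply, Matrix.smul_one_eq_diagonal]

/-- The images of a basis form a basis. -/
theorem exists_bas [FiniteDimensional E A] (hA : finrank E A = n * n)
    (F : A →ₐ[E] Matrix (Fin n) (Fin n) Ω) (h : Submodule.span Ω (Set.range F) = ⊤) :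
    ∃ B : Basis (Fin (finrank E A)) Ω (Matrix (Fin n) (Fin n) Ω),
      ∀ i, B i = F (finBasis E A i) := by
  have h1 : ⊤ ≤ Submodule.span Ω (Set.range fun i => F (finBasis E A i)) := by
    rw [← h, Submodule.span_le]
    rintro _ ⟨a, rfl⟩
    rw [← (finBasis E A).sum_repr a, map_sum]
    refine Submodule.sum_mem _ fun i _ => ?_
    rw [map_smul, ← algebraMap_smul Ω]
    exact Submodule.smul_mem _ _ (Submodule.subset_span ⟨i, rfl⟩)
  refine ⟨basisOfTopLeSpanOfCardEqFinrank _ h1 ?_, fun i => ?_⟩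
  · rw [Fintype.card_fin, hA, Module.finrank_matrix, Fintype.card_fin, Module.finrank_self,
      mul_one]
  · rw [coe_basisOfTopLeSpanOfCardEqFinrank]

/-- Two splittings are conjugate. -/
theorem sn (hn : 0 < n) [FiniteDimensional E A] (hA : finrank E A = n * n)
    (F G : A →ₐ[E] Matrix (Fin n) (Fin n) Ω) (h : Submodule.span Ω (Set.range F) = ⊤) :
    ∃ S S' : Matrix (Fin n) (Fin n) Ω, S * S' = 1 ∧ S' * S = 1 ∧ (∀ a, G a * S = S * F a) ∧
      Submodule.span Ω (Set.range G) = ⊤ := by
  have hne : Nonempty (Fin n) := ⟨⟨0, hn⟩⟩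
  obtain ⟨B, hB⟩ := exists_bas hA F h
  let θ : Matrix (Fin n) (Fin n) Ω →ₗ[Ω] Matrix (Fin n) (Fin n) Ω :=
    B.constr Ω fun i => G (finBasis E A i)
  have hθ : ∀ a, θ (F a) = G a := by
    intro a
    rw [← (finBasis E A).sum_repr a, map_sum, map_sum, map_sum]
    refine Finset.sum_congr rfl fun i _ => ?_
    rw [map_smul F, map_smul G, ← algebraMap_smul Ω, map_smul θ, ← hB, Basis.constr_basis,
      algebraMap_smul]
  have hm : ∀ X Y, θ (X * Y) = θ X * θ Y := by
    have h1 : (LinearMap.mul Ω (Matrix (Fin n) (Fin n) Ω)).compr₂ θ =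
        (LinearMap.mul Ω (Matrix (Fin n) (Fin n) Ω)).compl₁₂ θ θ := by
      refine LinearMap.ext_basis B B fun i j => ?_
      rw [LinearMap.compr₂_apply, LinearMap.compl₁₂_apply, LinearMap.mul_apply',
        LinearMap.mul_apply', hB, hB, ← map_mul, hθ, hθ, hθ, map_mul]
    intro X Y
    exact LinearMap.congr_fun₂ h1 X Y
  have h1 : θ 1 = 1 := by
    have h1 := hθ 1
    rwa [map_one F, map_one G] at h1
  let θ' : Matrix (Fin n) (Fin n) Ω →ₐ[Ω] Matrix (Fin n) (Fin n) Ω := AlgHom.ofLinearMap θ h1 hm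
  have hb : Function.Bijective θ' := AlgHom.bijective θ'
  let Φ : End Ω (Fin n → Ω) ≃ₐ[Ω] End Ω (Fin n → Ω) :=
    (Matrix.toLinAlgEquiv' (n := Fin n) (R := Ω)).symm.trans ((AlgEquiv.ofBijective θ' hb).trans
      (Matrix.toLinAlgEquiv' (n := Fin n) (R := Ω)))
  obtain ⟨T, hT⟩ := AlgEquiv.eq_linearEquivConjAlgEquiv Φ
  refine ⟨LinearMap.toMatrix' T.toLinearMap, LinearMap.toMatrix' T.symm.toLinearMap, ?_, ?_, ?_,
    ?_⟩
  · rw [← LinearMap.toMatrix'_comp]
    simp
  · rw [← LinearMap.toMatrix'_comp]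
    simp
  · intro a
    have h2 : Φ (Matrix.toLin' (F a)) = Matrix.toLin' (G a) := by
      change (Matrix.toLinAlgEquiv' (n := Fin n) (R := Ω)) (θ
        ((Matrix.toLinAlgEquiv' (n := Fin n) (R := Ω)).symm (Matrix.toLin' (F a)))) = _
      have h3 : (Matrix.toLinAlgEquiv' (n := Fin n) (R := Ω)).symm (Matrix.toLin' (F a)) = F a :=
        (Matrix.toLinAlgEquiv' (n := Fin n) (R := Ω)).symm_apply_apply (F a)
      rw [h3, hθ]
      rfl
    rw [hT, LinearEquiv.conjAlgEquiv_apply] at h2
    apply Matrix.toLin'.injective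
    rw [Matrix.toLin'_mul, Matrix.toLin'_mul, Matrix.toLin'_toMatrix', ← h2]
    refine LinearMap.ext fun x => ?_
    simp
  · rw [Submodule.eq_top_iff']
    intro Y
    obtain ⟨X, rfl⟩ := hb.2 Y
    have hX : X ∈ Submodule.span Ω (Set.range F) := by
      rw [h]; exact Submodule.mem_top
    change θ X ∈ _
    induction hX using Submodule.span_induction with
    | mem x hx =>
      obtain ⟨x, rfl⟩ := hx
      rw [hθ]
      exact Submodule.subset_span ⟨x, rfl⟩
    | zero => rw [map_zero]; exact Submodule.zero_mem _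
    | add a b _ _ ha hb => rw [map_add]; exact Submodule.add_mem _ ha hb
    | smul c a _ ha => rw [map_smul]; exact Submodule.smul_mem _ _ ha

omit [Field E] [Ring A] [Algebra E A] [Algebra E Ω] in
/-- Two semilinear maps which commute with the algebra are proportional. -/
theorem cmp {F G : A → Matrix (Fin n) (Fin n) Ω} (h : Submodule.span Ω (Set.range F) = ⊤)
    {S S' : Matrix (Fin n) (Fin n) Ω} (h2 : S' * S = 1) (hS : ∀ a, G a * S = S * F a)
    (s : Ω →+* Ω) {P P' Q : Matrix (Fin n) (Fin n) Ω} (hP : P' * P = 1)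
    (hF : ∀ a, P * (F a).map s = F a * P) (hG : ∀ a, Q * (G a).map s = G a * Q) :
    ∃ t : Ω, S' * Q * S.map s = t • P := by
  have h1 : S * S' = 1 := mul_eq_one_comm.mp h2
  have hP1 : P * P' = 1 := mul_eq_one_comm.mp hP
  have e1 : ∀ a, (F a).map s * P' = P' * F a := by
    intro a
    calc (F a).map s * P' = (P' * P) * (F a).map s * P' := by rw [hP, one_mul]
      _ = P' * (P * (F a).map s) * P' := by rw [mul_assoc P']
      _ = P' * F a * (P * P') := by rw [hF, mul_assoc, mul_assoc, mul_assoc]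
      _ = P' * F a := by rw [hP1, mul_one]
  have e2 : ∀ a, S' * G a = F a * S' := by
    intro a
    calc S' * G a = S' * G a * (S * S') := by rw [h1, mul_one]
      _ = S' * (G a * S) * S' := by simp only [mul_assoc]
      _ = (S' * S) * F a * S' := by rw [hS]; simp only [mul_assoc]
      _ = F a * S' := by rw [h2, one_mul]
  have e3 : ∀ a, (G a).map s * S.map s = S.map s * (F a).map s := by
    intro a
    rw [← Matrix.map_mul, ← Matrix.map_mul, hS]
  obtain ⟨t, ht⟩ := comm_scalar h (X := S' * Q * S.map s * P') fun a => by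
    calc F a * (S' * Q * S.map s * P') = (F a * S') * Q * S.map s * P' := by
          simp only [mul_assoc]
      _ = S' * (G a * Q) * S.map s * P' := by rw [← e2]; simp only [mul_assoc]
      _ = S' * Q * ((G a).map s * S.map s) * P' := by rw [← hG]; simp only [mul_assoc]
      _ = S' * Q * S.map s * ((F a).map s * P') := by rw [e3]; simp only [mul_assoc]
      _ = S' * Q * S.map s * P' * F a := by rw [e1]; simp only [mul_assoc]
  refine ⟨t, ?_⟩
  calc S' * Q * S.map s = S' * Q * S.map s * P' * P := by rw [mul_assoc _ P', hP, mul_one]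
    _ = t • P := by rw [ht, smul_mul_assoc, one_mul]

/-- A form of the matrix algebra is simple. -/
theorem simple (hn : 0 < n) [FiniteDimensional E A] (hA : finrank E A = n * n)
    (F : A →ₐ[E] Matrix (Fin n) (Fin n) Ω) (h : Submodule.span Ω (Set.range F) = ⊤) :
    IsSimpleRing A := by
  have hne : Nonempty (Fin n) := ⟨⟨0, hn⟩⟩
  have hnt : Nontrivial A := by
    apply Module.nontrivial_of_finrank_pos (R := E)
    rw [hA]
    positivity
  obtain ⟨B, hB⟩ := exists_bas hA F h
  obtain ⟨l, hl⟩ := Module.Projective.exists_dual_eq_one E (one_ne_zero : (1 : Ω) ≠ 0)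
  let Λ : Matrix (Fin n) (Fin n) Ω → A := fun X => ∑ i, l (B.repr X i) • finBasis E A i
  have hrep : ∀ a i, B.repr (F a) i = algebraMap E Ω ((finBasis E A).repr a i) := by
    intro a i
    have h1 : F a = ∑ j, algebraMap E Ω ((finBasis E A).repr a j) • B j := by
      conv_lhs => rw [← (finBasis E A).sum_repr a, map_sum]
      refine Finset.sum_congr rfl fun j _ => ?_
      rw [map_smul, algebraMap_smul, hB]
    rw [h1, B.repr_sum_self]
  have hΛ : ∀ (t : Ω) a, Λ (t • F a) = l t • a := by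
    intro t a
    conv_rhs => rw [← (finBasis E A).sum_repr a, Finset.smul_sum]
    refine Finset.sum_congr rfl fun i _ => ?_
    rw [map_smul, Finsupp.smul_apply, hrep, smul_eq_mul, mul_comm, ← Algebra.smul_def, map_smul,
      smul_smul, smul_eq_mul, mul_comm]
  have hΛa : ∀ X Y, Λ (X + Y) = Λ X + Λ Y := by
    intro X Y
    simp only [Λ, map_add, Finsupp.add_apply, add_smul, Finset.sum_add_distrib]
  have hΛ0 : Λ 0 = 0 := by simp [Λ]
  refine IsSimpleRing.of_eq_bot_or_eq_top fun I => ?_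
  rw [or_iff_not_imp_left, ← I.one_mem_iff]
  intro hI
  obtain ⟨x, hx1, hx2 : x ≠ 0⟩ := SetLike.exists_of_lt (bot_lt_iff_ne_bot.mpr hI : ⊥ < I)
  let J : Submodule Ω (Matrix (Fin n) (Fin n) Ω) := Submodule.span Ω (F '' I)
  have hmul : ∀ X Y, Y ∈ J → X * Y ∈ J ∧ Y * X ∈ J := by
    intro X Y hY
    have hX : X ∈ Submodule.span Ω (Set.range F) := by
      rw [h]; exact Submodule.mem_top
    induction hX using Submodule.span_induction with
    | mem x hx =>
      obtain ⟨a, rfl⟩ := hx
      induction hY using Submodule.span_induction with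
      | mem y hy =>
        obtain ⟨b, hb, rfl⟩ := hy
        rw [← map_mul, ← map_mul]
        exact ⟨Submodule.subset_span ⟨_, I.mul_mem_left a b hb, rfl⟩,
          Submodule.subset_span ⟨_, I.mul_mem_right b a hb, rfl⟩⟩
      | zero => rw [zero_mul, mul_zero]; exact ⟨J.zero_mem, J.zero_mem⟩
      | add a b _ _ ha hb =>
        rw [add_mul, mul_add]; exact ⟨J.add_mem ha.1 hb.1, J.add_mem ha.2 hb.2⟩
      | smul c a _ ha =>
        rw [smul_mul_assoc, mul_smul_comm]; exact ⟨J.smul_mem _ ha.1, J.smul_mem _ ha.2⟩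
    | zero => rw [zero_mul, mul_zero]; exact ⟨J.zero_mem, J.zero_mem⟩
    | add a b _ _ ha hb =>
      rw [add_mul, mul_add]; exact ⟨J.add_mem ha.1 hb.1, J.add_mem ha.2 hb.2⟩
    | smul c a _ ha =>
      rw [smul_mul_assoc, mul_smul_comm]; exact ⟨J.smul_mem _ ha.1, J.smul_mem _ ha.2⟩
  let J' : TwoSidedIdeal (Matrix (Fin n) (Fin n) Ω) := TwoSidedIdeal.mk' J J.zero_mem
    (fun h1 h2 => J.add_mem h1 h2) (fun h1 => J.neg_mem h1) (fun {X Y} h1 => (hmul X Y h1).1)
    (fun {X Y} h1 => (hmul Y X h1).2)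
  have hFx : F x ≠ 0 := by
    intro h0
    have h1 := hΛ 1 x
    rw [h0, smul_zero, hΛ0, hl, one_smul] at h1
    exact hx2 h1.symm
  have h1 : (1 : Matrix (Fin n) (Fin n) Ω) ∈ J' := IsSimpleRing.one_mem_of_ne_zero_mem J' hFx (by
    rw [TwoSidedIdeal.mem_mk']
    exact Submodule.subset_span ⟨x, hx1, rfl⟩)
  rw [TwoSidedIdeal.mem_mk'] at h1
  have h2 : ∀ Y, Y ∈ J → ∀ t : Ω, Λ (t • Y) ∈ I := by
    intro Y hY
    induction hY using Submodule.span_induction with
    | mem y hy =>
      obtain ⟨b, hb, rfl⟩ := hy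
      intro t
      rw [hΛ, Algebra.smul_def]
      exact I.mul_mem_left _ _ hb
    | zero => intro t; rw [smul_zero, hΛ0]; exact I.zero_mem
    | add a b _ _ ha hb => intro t; rw [smul_add, hΛa]; exact I.add_mem (ha t) (hb t)
    | smul c a _ ha => intro t; rw [smul_smul]; exact ha _
  have h3 := h2 1 h1 1
  rwa [← map_one F, hΛ, hl, one_smul] at h3

/-- The division algebra of a form of the matrix algebra. -/
theorem wed [CharZero E] (hn : 0 < n) [FiniteDimensional E A] [Algebra.IsCentral E A]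
    (hA : finrank E A = n * n)
    (F : A →ₐ[E] Matrix (Fin n) (Fin n) Ω) (h : Submodule.span Ω (Set.range F) = ⊤) :
    ∃ (m d : ℕ) (D : Type) (_ : DivisionRing D) (_ : Algebra E D) (_ : FiniteDimensional E D)
      (_ : Algebra.IsCentral E D) (_ : A ≃ₐ[E] Matrix (Fin m) (Fin m) D), m * d = n ∧
      finrank E D = d ^ 2 ∧ ∀ (R : Type) [Field R] [Algebra E R],
        Spl D d (algebraMap E R) ↔ Nonempty (A →ₐ[E] Matrix (Fin n) (Fin n) R) := by
  have := simple hn hA F h
  have : IsArtinianRing A := IsArtinianRing.of_finite E _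
  have hcΩ : CharZero Ω := charZero_of_injective_algebraMap (algebraMap E Ω).injective
  obtain ⟨m, hm, D, i1, i2, i3, ⟨ψ⟩⟩ := IsSimpleRing.exists_algEquiv_matrix_divisionRing_finite E A
  have hcen : Algebra.IsCentral E D := by
    refine ⟨fun c hc => ?_⟩
    rw [Subalgebra.mem_center_iff] at hc
    have h0 : ψ.symm (Matrix.scalar (Fin m) c) ∈ Subalgebra.center E A := by
      rw [Subalgebra.mem_center_iff]
      intro d
      apply ψ.injective
      rw [map_mul, map_mul, ψ.apply_symm_apply]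
      ext i j
      rw [Matrix.scalar_apply, Matrix.mul_diagonal, Matrix.diagonal_mul]
      exact hc _
    rw [Algebra.IsCentral.center_eq_bot, Algebra.mem_bot] at h0
    obtain ⟨e, he⟩ := h0
    have h1 : Matrix.scalar (Fin m) c = algebraMap E (Matrix (Fin m) (Fin m) D) e := by
      rw [← ψ.apply_symm_apply (Matrix.scalar (Fin m) c), ← he]
      exact ψ.commutes e
    rw [Algebra.mem_bot]
    refine ⟨e, ?_⟩
    have h2 := congrFun (congrFun h1 0) 0
    rw [Matrix.scalar_apply, Matrix.diagonal_apply_eq, Matrix.algebraMap_matrix_apply,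
      if_pos rfl] at h2
    exact h2.symm
  have h2 := Vale.Agent.P011S.corner_dim
    (F.comp (ψ.symm : Matrix (Fin m) (Fin m) D →ₐ[E] A))
  obtain ⟨d, hd⟩ : ∃ d, d = finrank Ω (Vale.Agent.P011S.cW
    (F.comp (ψ.symm : Matrix (Fin m) (Fin m) D →ₐ[E] A))) := ⟨_, rfl⟩
  rw [← hd] at h2
  have hmpos : 0 < m := Nat.pos_of_ne_zero (NeZero.ne m)
  have h3 : finrank E D = d ^ 2 := by
    have h1 := ψ.toLinearEquiv.finrank_eq
    rw [hA, Module.finrank_matrix, Fintype.card_fin, ← h2] at h1
    refine (Nat.eq_of_mul_eq_mul_left (Nat.mul_pos hmpos hmpos) ?_).symm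
    rw [← h1]
    ring
  refine ⟨m, d, D, i1, i2, i3, hcen, ψ, h2, h3, fun R _ _ => ?_⟩
  have hcR : CharZero R := charZero_of_injective_algebraMap (algebraMap E R).injective
  rw [spl_iff]
  constructor
  · rintro ⟨f2⟩
    subst h2
    exact ⟨(Matrix.reindexAlgEquiv E R finProdFinEquiv).toAlgHom.comp
      (((Matrix.compAlgEquiv (Fin m) (Fin d) R E).toAlgHom.comp
      (f2.mapMatrix : Matrix (Fin m) (Fin m) D →ₐ[E] _)).comp ψ.toAlgHom)⟩
  · rintro ⟨g⟩
    obtain ⟨f2, _⟩ := Vale.Agent.P011S.exists_corner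
      (g.comp (ψ.symm : Matrix (Fin m) (Fin m) D →ₐ[E] A)) h2
    exact ⟨f2⟩

/-- Descent of a splitting to a subfield which contains all the entries. -/
theorem lift_hom {R : Type} [Field R] [Algebra E R] (ρ : R →ₐ[E] Ω)
    (F : A →ₐ[E] Matrix (Fin n) (Fin n) Ω) (h : ∀ a i j, ∃ r, ρ r = F a i j) :
    Nonempty (A →ₐ[E] Matrix (Fin n) (Fin n) R) := by
  choose G hG using h
  let M : Matrix (Fin n) (Fin n) R →ₐ[E] Matrix (Fin n) (Fin n) Ω := ρ.mapMatrix
  have hM : Function.Injective M := by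
    intro X Y hXY
    ext i j
    exact ρ.toRingHom.injective (congrFun (congrFun hXY i) j)
  have h1 : ∀ a, M (Matrix.of (G a)) = F a := fun a => by
    ext i j
    exact hG a i j
  exact ⟨{ toFun := fun a => Matrix.of (G a)
           map_one' := hM (by rw [h1, map_one, map_one])
           map_mul' := fun a b => hM (by rw [map_mul, h1, h1, h1, map_mul])
           map_zero' := hM (by rw [h1, map_zero, map_zero])
           map_add' := fun a b => hM (by rw [map_add, h1, h1, h1, map_add])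
           commutes' := fun c => hM (by rw [h1, AlgHom.commutes, AlgHom.commutes]) }⟩

end sn

end Vale.Agent.P011Z.Cl.Br0x

end
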