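import Vale.Agent.P011.Pow.LQb
import Vale.Agent.P011.W.LocC

/-!
The semilinear map of a local division algebra.
-/

open Matrix Module

noncomputable section

namespace Vale.Agent.P011Z.Cl.Br0x

open Vale.Agent.P011.W Vale.Agent.P011.Even.LocDiv

section semi

variable {W U : Type} [Field W] [AddCommGroup U] [Module W U] {n : ℕ}

theorem map_mv {W' : Type} [Field W'] (s : W →+* W') (M : Matrix (Fin n) (Fin n) W)
    (y : Fin n → W) : s ∘ (M *ᵥ y) = M.map s *ᵥ (s ∘ y) :=
  funext fun i => RingHom.map_mulVec s M y i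

theorem ext_semi (s : W →+* W) {M N : Matrix (Fin n) (Fin n) W}
    (h : ∀ y : Fin n → W, M *ᵥ (s ∘ y) = N *ᵥ (s ∘ y)) : M = N := by
  ext i j
  have h1 : s ∘ (Pi.single j 1 : Fin n → W) = Pi.single j 1 := by
    funext k
    by_cases hk : k = j
    · subst hk; simp
    · simp [hk]
  have h2 := congrFun (h (Pi.single j 1)) i
  rwa [h1, Matrix.mulVec_single_one, Matrix.mulVec_single_one] at h2

/-- The matrix of a semilinear map. -/
theorem exists_mat (b : U ≃ₗ[W] (Fin n → W)) (s : W →+* W) (u : U → U)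
    (ha : ∀ x y, u (x + y) = u x + u y) (hs : ∀ (t : W) x, u (t • x) = s t • u x) :
    ∃ P : Matrix (Fin n) (Fin n) W, ∀ x, b (u x) = P *ᵥ (s ∘ b x) := by
  let u' : U →ₛₗ[s] U := ⟨⟨u, ha⟩, hs⟩
  refine ⟨Matrix.of fun i j => b (u (b.symm (Pi.single j 1))) i, fun x => ?_⟩
  have h1 : x = ∑ j, b x j • b.symm (Pi.single j 1) := by
    apply b.injective
    rw [map_sum]
    conv_lhs => rw [pi_eq_sum_univ' (b x)]
    refine Finset.sum_congr rfl fun j _ => ?_
    rw [map_smul, b.apply_symm_apply]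
  have h2 : u x = ∑ j, s (b x j) • u (b.symm (Pi.single j 1)) := by
    change u' x = _
    conv_lhs => rw [h1, map_sum]
    exact Finset.sum_congr rfl fun j _ => hs _ _
  rw [h2, map_sum]
  funext i
  rw [Finset.sum_apply, Matrix.mulVec, dotProduct]
  refine Finset.sum_congr rfl fun j _ => ?_
  rw [map_smul, Pi.smul_apply, smul_eq_mul, mul_comm]
  rfl

end semi

section loc

variable {k Δ : Type} [NontriviallyNormedField k] [NormedDivisionRing Δ]
  [NormedAlgebra k Δ] [IsUltrametricDist Δ]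

theorem dvd_W {R : Frame Δ} {W : Type} [Field W] [Algebra k W] (C : Cyc k Δ W R) {l : W} {i : ℕ}
    (hi : ‖C.ι l‖ = ‖R.π‖ ^ i) : C.m ∣ i := by
  apply C.dvd_of_fix
  set u : Δ := C.ι l * (R.π ^ i)⁻¹ with hu
  have hπi : R.π ^ i ≠ 0 := pow_ne_zero _ R.π0
  have hu1 : ‖u‖ = 1 := by
    rw [hu, norm_mul, norm_inv, hi, norm_pow, mul_inv_cancel₀]
    exact pow_ne_zero _ R.πpos.ne'
  have h1 : u * R.ζ ^ (R.j ^ i) = R.ζ * u := by
    apply mul_right_cancel₀ hπi
    have h2 : u * R.π ^ i = C.ι l := by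
      rw [hu, inv_mul_cancel_right₀ hπi]
    rw [mul_assoc, ← pi_pow, ← mul_assoc, h2, mul_assoc, h2, ← C.hω, ← map_mul, ← map_mul,
      mul_comm]
  have h3 := R.comm_mod hu1 (R.j ^ i)
  rw [h1] at h3
  have h4 : ‖(R.ζ - R.ζ ^ (R.j ^ i)) * u‖ < 1 := by rwa [sub_mul]
  rw [norm_mul, hu1, mul_one, norm_sub_rev] at h4
  have h5 := R.pow_inj (a := R.j ^ i) (b := 1) (by rwa [pow_one])
  rwa [pow_one] at h5

variable [CompleteSpace k] [FiniteDimensional k Δ] [CharZero k] [Algebra.IsCentral k Δ]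

theorem loc0 (R : Frame Δ) {q : ℕ} (hq : finrank k Δ = q ^ 2) (ι : Type) [Fintype ι]
    [DecidableEq ι] {n : ℕ} (hn : Fintype.card ι * q = n) :
    ∃ (W : Type) (_ : Field W) (_ : Algebra k W) (σ : W ≃+* W)
      (X : Matrix ι ι Δ →ₐ[k] Matrix (Fin n) (Fin n) W) (P : Matrix (Fin n) (Fin n) W) (c : W),
      (∀ x, σ (algebraMap k W x) = algebraMap k W x) ∧
      (∀ a, P * (X a).map (σ : W →+* W) = X a * P) ∧
      (∀ y : Fin n → W, (fun y => P *ᵥ (σ ∘ y))^[q] y = c • y) ∧
      ∀ (l : W) (p : ℕ), ∏ i ∈ Finset.range q, σ^[i] l = c ^ p → q ∣ p := by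
  obtain ⟨W, _, _, _, ⟨C⟩⟩ := exists_cyc (k := k) R
  have hm : C.m = q := Vale.Agent.P011.Pow.LQ.m_eq C hq
  subst hm
  obtain ⟨-, -, hdim⟩ := C.exists_X
  have hW : finrank k W = C.m := by
    rw [Module.finrank_fin_fun, hq, pow_two] at hdim
    exact Nat.eq_of_mul_eq_mul_left C.m0 hdim
  let ιo : W →+* Δᵐᵒᵖ := (C.ι : W →+* Δ).toOpposite fun x y => (Commute.all x y).map C.ι
  let _ : Module W Δ := Module.compHom Δ ιo
  have hs : ∀ (l : W) (d : Δ), l • d = d * C.ι l := fun _ _ => rfl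
  have : IsScalarTower k W Δ := IsScalarTower.of_algebraMap_smul fun c d => by
    rw [hs, C.ι.commutes, Algebra.smul_def, Algebra.commutes]
  have hWD : FiniteDimensional W Δ := Module.Finite.of_restrictScalars_finite k W Δ
  have hr : finrank W Δ = C.m := by
    have h1 := Module.finrank_mul_finrank k W Δ
    rw [hW, hq, pow_two] at h1
    exact Nat.eq_of_mul_eq_mul_left C.m0 h1
  have hU : finrank W (ι → Δ) = n := by
    rw [Module.finrank_pi_fintype, Finset.sum_const, Finset.card_univ, hr, smul_eq_mul, hn]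
  let b := Module.finBasisOfFinrankEq W (ι → Δ) hU
  let ρ : Matrix ι ι Δ →+* End W (ι → Δ) :=
    { toFun := fun a =>
        { toFun := fun y => a *ᵥ y
          map_add' := fun x y => Matrix.mulVec_add a x y
          map_smul' := fun l y => by
            funext i
            change ∑ j, a i j * (y j * C.ι l) = (∑ j, a i j * y j) * C.ι l
            rw [Finset.sum_mul]
            exact Finset.sum_congr rfl fun j _ => (mul_assoc _ _ _).symm }
      map_one' := LinearMap.ext fun y => Matrix.one_mulVec y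
      map_mul' := fun a a' => LinearMap.ext fun y => (Matrix.mulVec_mulVec y a a').symm
      map_zero' := LinearMap.ext fun y => Matrix.zero_mulVec y
      map_add' := fun a a' => LinearMap.ext fun y => Matrix.add_mulVec a a' y }
  have hρ : ∀ a y, ρ a y = a *ᵥ y := fun _ _ => rfl
  let X0 : Matrix ι ι Δ →+* Matrix (Fin n) (Fin n) W :=
    ((LinearMap.toMatrixAlgEquiv b : End W (ι → Δ) ≃ₐ[W] _) : End W (ι → Δ) →+* _).comp ρ
  have hX0 : ∀ a y, b.equivFun (ρ a y) = X0 a *ᵥ b.equivFun y := fun a y =>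
    (LinearMap.toMatrix_mulVec_repr b b (ρ a) y).symm
  have hXc : ∀ c : k, X0 (algebraMap k _ c) = algebraMap k _ c := by
    intro c
    have h1 : ρ (algebraMap k _ c) = algebraMap W _ (algebraMap k W c) := by
      refine LinearMap.ext fun y => ?_
      rw [hρ, Algebra.algebraMap_eq_smul_one, Matrix.smul_mulVec, Matrix.one_mulVec,
        Module.algebraMap_end_apply, algebraMap_smul]
    change (LinearMap.toMatrixAlgEquiv b) (ρ _) = _
    rw [h1, AlgEquiv.commutes, ← IsScalarTower.algebraMap_apply]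
  have hσb : Function.Bijective C.σ := by
    refine ⟨C.σ.toRingHom.injective, fun w => ⟨C.σ^[C.m - 1] w, ?_⟩⟩
    rw [← Function.iterate_succ_apply' C.σ, Nat.succ_eq_add_one, Nat.sub_add_cancel C.m0, C.σ_m]
  let σ : W ≃+* W := RingEquiv.ofBijective (C.σ : W →+* W) hσb
  have hσ : (σ : W → W) = C.σ := rfl
  let u : (ι → Δ) → ι → Δ := fun y i => y i * R.π⁻¹
  have hu : ∀ (l : W) y, u (l • y) = (σ : W →+* W) l • u y := by
    intro l y
    funext i
    change y i * C.ι l * R.π⁻¹ = y i * R.π⁻¹ * C.ι (C.σ l)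
    rw [mul_assoc, mul_assoc]
    congr 1
    rw [mul_inv_eq_iff_eq_mul₀ R.π0, mul_assoc, ← C.hσ, inv_mul_cancel_left₀ R.π0]
  obtain ⟨P, hP⟩ := exists_mat b.equivFun (σ : W →+* W) u
    (fun x y => funext fun i => add_mul _ _ _) hu
  obtain ⟨ϖ, hϖ⟩ := C.exists_ϖ
  have hit : ∀ (i : ℕ) (y : ι → Δ), (fun y => P *ᵥ (σ ∘ y))^[i] (b.equivFun y) =
      b.equivFun fun j => y j * (R.π ^ i)⁻¹ := by
    intro i y
    induction i with
    | zero => simp
    | succ i ih =>
      rw [Function.iterate_succ_apply', ih]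
      refine (hP _).symm.trans ?_
      congr 1
      funext j
      change y j * (R.π ^ i)⁻¹ * R.π⁻¹ = _
      rw [pow_succ', _root_.mul_inv_rev, mul_assoc]
  refine ⟨W, inferInstance, inferInstance, σ, { X0 with commutes' := hXc }, P,
    (algebraMap k W ϖ)⁻¹, fun x => C.σ.commutes x, fun a => ?_, fun y => ?_, fun l p h => ?_⟩
  · refine ext_semi (σ : W →+* W) fun y => ?_
    obtain ⟨y, rfl⟩ := b.equivFun.surjective y
    change (P * (X0 a).map _) *ᵥ _ = (X0 a * P) *ᵥ _
    rw [← Matrix.mulVec_mulVec, ← Matrix.mulVec_mulVec, ← map_mv, ← hX0, ← hP, ← hP, ← hX0]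
    congr 1
    funext i
    change (∑ j, a i j * y j) * R.π⁻¹ = ∑ j, a i j * (y j * R.π⁻¹)
    rw [Finset.sum_mul]
    exact Finset.sum_congr rfl fun j _ => mul_assoc _ _ _
  · obtain ⟨y, rfl⟩ := b.equivFun.surjective y
    rw [hit, ← map_smul]
    congr 1
    funext j
    rw [Pi.smul_apply, hs, map_inv₀, C.ι.commutes, hϖ]
  · have h1 : C.N l = (algebraMap k W ϖ)⁻¹ ^ p := h
    have h2 := C.norm_N l
    rw [h1, map_pow, map_inv₀, C.ι.commutes, hϖ, norm_pow, norm_inv, norm_pow, ← inv_pow,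
      ← pow_mul, mul_comm, pow_mul] at h2
    have h3 := (pow_left_inj₀ (by positivity) (norm_nonneg _) C.m0.ne').mp h2
    refine dvd_W C (l := l⁻¹) ?_
    rw [map_inv₀, norm_inv, ← h3, inv_pow, inv_inv]

end loc

/-- The semilinear map of a local division algebra. -/
theorem loc {k Δ : Type} [NontriviallyNormedField k] [IsUltrametricDist k] [ProperSpace k]
    [CharZero k] [DivisionRing Δ] [Algebra k Δ] [FiniteDimensional k Δ] [Algebra.IsCentral k Δ]
    {q : ℕ} (hq : finrank k Δ = q ^ 2) (ι : Type) [Fintype ι]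
    [DecidableEq ι] {n : ℕ} (hn : Fintype.card ι * q = n) :
    ∃ (W : Type) (_ : Field W) (_ : Algebra k W) (σ : W ≃+* W)
      (X : Matrix ι ι Δ →ₐ[k] Matrix (Fin n) (Fin n) W) (P : Matrix (Fin n) (Fin n) W) (c : W),
      (∀ x, σ (algebraMap k W x) = algebraMap k W x) ∧
      (∀ a, P * (X a).map (σ : W →+* W) = X a * P) ∧
      (∀ y : Fin n → W, (fun y => P *ᵥ (σ ∘ y))^[q] y = c • y) ∧
      ∀ (l : W) (p : ℕ), ∏ i ∈ Finset.range q, σ^[i] l = c ^ p → q ∣ p := by
  let _ : NormedDivisionRing Δ := ndr k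
  let _ : NormedAlgebra k Δ :=
    { (inferInstance : Algebra k Δ) with
      norm_smul_le := fun c x => by
        change nm k (c • x) ≤ ‖c‖ * nm k x
        rw [Algebra.smul_def, nm_mul, nm_algebraMap] }
  have hU : IsUltrametricDist Δ :=
    IsUltrametricDist.isUltrametricDist_of_forall_norm_add_le_max_norm
      (fun x y => nm_add_le_max k x y)
  have : ProperSpace Δ := FiniteDimensional.proper k Δ
  obtain ⟨c, hc0, hc1⟩ := NormedField.exists_norm_lt_one k
  have hc : ‖algebraMap k Δ c‖ = ‖c‖ := nm_algebraMap k c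
  have hcne : algebraMap k Δ c ≠ 0 := by
    rw [← norm_ne_zero_iff, hc]
    exact hc0.ne'
  obtain ⟨R⟩ := exists_frame (algebraMap k Δ c) hcne (by rw [hc]; exact hc1)
  exact loc0 R hq ι hn

end Vale.Agent.P011Z.Cl.Br0x

end
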