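import Mathlib

/-!
Transport of polynomial identities to an extension field.
-/

open Matrix MvPolynomial

noncomputable section

namespace Vale.Agent.P011Z.Cl.Br0x

variable {K Ω : Type} [Field K] [Field Ω] {n : ℕ}

/-- A linear substitution. -/
def lin (P : Matrix (Fin n) (Fin n) K) (i : Fin n) : MvPolynomial (Fin n) K :=
  ∑ j, C (P i j) * X j

theorem ev_lin (κ : K →+* Ω) (P : Matrix (Fin n) (Fin n) K) (Q : MvPolynomial (Fin n) K)
    (y : Fin n → Ω) : eval₂Hom κ y (bind₁ (lin P) Q) = eval₂Hom κ (P.map κ *ᵥ y) Q := by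
  rw [eval₂Hom_bind₁]
  congr 2
  funext i
  rw [lin, map_sum, Matrix.mulVec, dotProduct]
  refine Finset.sum_congr rfl fun j _ => ?_
  rw [map_mul, eval₂Hom_C, eval₂Hom_X', Matrix.map_apply]

theorem ev_id {ι : Type} (Q : MvPolynomial ι K) (y : ι → K) :
    eval y Q = eval₂Hom (RingHom.id K) y Q := rfl

theorem tr_semi [Infinite K] (κ : K →+* Ω) (s : Ω →+* Ω) (τ : K →+* K)
    (hs : ∀ x, s (κ x) = κ (τ x)) (hτ : Function.Surjective τ) (Q : MvPolynomial (Fin n) K)
    (P : Matrix (Fin n) (Fin n) K) (l : K)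
    (h : ∀ x : Fin n → K, eval (P *ᵥ (τ ∘ x)) Q = l * τ (eval x Q)) (y : Fin n → Ω) :
    eval₂Hom κ (P.map κ *ᵥ (s ∘ y)) Q = κ l * s (eval₂Hom κ y Q) := by
  have h1 : bind₁ (lin P) Q = C l * map τ Q := by
    apply MvPolynomial.funext
    intro z
    obtain ⟨x, rfl⟩ := (hτ.comp_left : Function.Surjective fun x : Fin n → K => τ ∘ x) z
    rw [ev_id, ev_lin, map_mul, eval_C, eval_map]
    refine (h x).trans ?_
    rw [ev_id, map_eval₂Hom]
    rfl
  have h2 : s.comp κ = κ.comp τ := RingHom.ext hs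
  rw [← ev_lin, h1, map_mul, eval₂Hom_C, map_eval₂Hom, h2, coe_eval₂Hom, coe_eval₂Hom, eval₂_map]
  rfl

theorem tr_hom [Infinite K] (κ : K →+* Ω) (Q : MvPolynomial (Fin n) K) (p : ℕ)
    (h : ∀ (t : K) (x : Fin n → K), eval (t • x) Q = t ^ p * eval x Q) (t : Ω) (y : Fin n → Ω) :
    eval₂Hom κ (t • y) Q = t ^ p * eval₂Hom κ y Q := by
  have h1 : bind₁ (fun i => (X none * X (some i) : MvPolynomial (Option (Fin n)) K)) Q =
      X none ^ p * rename some Q := by
    apply MvPolynomial.funext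
    intro z
    rw [ev_id, eval₂Hom_bind₁, map_mul, map_pow, eval_X, eval_rename, ← h, ev_id]
    congr 2
    funext i
    rw [map_mul, eval₂Hom_X', eval₂Hom_X']
    rfl
  have h2 := congrArg (eval₂Hom κ fun o : Option (Fin n) => o.elim t y) h1
  rw [eval₂Hom_bind₁, map_mul, map_pow, eval₂Hom_X', eval₂Hom_rename] at h2
  refine Eq.trans ?_ h2
  congr 2
  funext i
  rw [map_mul, eval₂Hom_X', eval₂Hom_X']
  rfl

theorem tr_ne {W : Type} [Field W] [Infinite W] (κ : K →+* Ω) (ρ : W →+* Ω)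
    (Q : MvPolynomial (Fin n) K) (S : Matrix (Fin n) (Fin n) Ω) (y : Fin n → Ω)
    (h : eval₂Hom κ (S *ᵥ y) Q ≠ 0) : ∃ z : Fin n → W, eval₂Hom κ (S *ᵥ (ρ ∘ z)) Q ≠ 0 := by
  have h1 : ∀ y, eval y (bind₁ (lin S) (map κ Q)) = eval₂Hom κ (S *ᵥ y) Q := by
    intro y
    rw [ev_id, ev_lin, coe_eval₂Hom, coe_eval₂Hom, eval₂_map]
    rfl
  by_contra h0
  push Not at h0
  have h2 : bind₁ (lin S) (map κ Q) = 0 := by
    refine MvPolynomial.funext_set (fun _ => Set.range ρ)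
      (fun _ => Set.infinite_range_of_injective ρ.injective) fun x hx => ?_
    choose z hz using fun i => hx i (Set.mem_univ i)
    have h3 : x = ρ ∘ z := funext fun i => (hz i).symm
    rw [h1, h3, h0, map_zero]
  rw [← h1, h2, map_zero] at h
  exact h rfl

end Vale.Agent.P011Z.Cl.Br0x

end
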