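import Vale.Agent.P011Z.Cl.Pol
import Vale.Agent.P011Z.Cl.Br0.Alg
import Vale.Agent.P011Z.Cl.Br0.Loc
import Vale.Agent.P011Z.Cl.Br0.Tr

/-!
The algebra of the endomorphisms which commute with a projective semilinear action.
-/

open Matrix Module

noncomputable section

namespace Vale.Agent.P011Z.Cl.Br0x

/-- An automorphism as a ring homomorphism. -/
def rh (σ : Gq) : Om →+* Om := σ

theorem rh_apply (σ : Gq) (x : Om) : rh σ x = σ x := rfl

variable {n : ℕ} {H : Subgroup Gq} {P : Gq → Matrix (Fin n) (Fin n) Om}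

/-- A projective action in coordinates. -/
structure Co (H : Subgroup Gq) (P : Gq → Matrix (Fin n) (Fin n) Om) : Prop where
  opn : Opn H
  inv : ∀ σ ∈ H, (P σ)⁻¹ * P σ = 1
  coc : ∀ σ ∈ H, ∀ τ ∈ H, ∃ c : Om, P σ * (P τ).map (rh σ) = c • P (σ * τ)
  smo : ∃ N, Opn N ∧ ∀ σ ∈ N, σ ∈ H → P σ = 1

theorem exists_co {V : Type} [AddCommGroup V] [Module Om V] [FiniteDimensional Om V]
    {f : Gq → V → V} (h : PA H f) (e : V ≃ₗ[Om] (Fin n → Om)) :
    ∃ P : Gq → Matrix (Fin n) (Fin n) Om, Co H P ∧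
      ∀ σ ∈ H, ∀ x, e (f σ x) = P σ *ᵥ (rh σ ∘ e x) := by
  have h1 : ∀ σ, ∃ P : Matrix (Fin n) (Fin n) Om, σ ∈ H →
      ∀ x, e (f σ x) = P *ᵥ (rh σ ∘ e x) := by
    intro σ
    by_cases hσ : σ ∈ H
    · obtain ⟨P, hP⟩ := exists_mat e (rh σ) (f σ) (h.semi σ hσ).add (h.semi σ hσ).smul
      exact ⟨P, fun _ => hP⟩
    · exact ⟨0, fun h => absurd h hσ⟩
  choose P hP using h1
  refine ⟨P, ⟨h.opn, fun σ hσ => ?_, fun σ hσ τ hτ => ?_, ?_⟩, hP⟩
  · apply Matrix.nonsing_inv_mul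
    rw [← Matrix.isUnit_iff_isUnit_det, ← Matrix.mulVec_surjective_iff_isUnit]
    intro y
    obtain ⟨x, hx⟩ := (h.semi σ hσ).bij.2 (e.symm y)
    exact ⟨rh σ ∘ e x, by rw [← hP σ hσ, hx, e.apply_symm_apply]⟩
  · obtain ⟨c, hc⟩ := h.coc σ hσ τ hτ
    refine ⟨c, ext_semi (rh (σ * τ)) fun y => ?_⟩
    obtain ⟨x, rfl⟩ := e.surjective y
    rw [Matrix.smul_mulVec, ← hP _ (H.mul_mem hσ hτ), ← map_smul, ← hc, hP σ hσ, hP τ hτ, map_mv,
      Matrix.mulVec_mulVec]
    rfl
  · obtain ⟨N, hN, hb⟩ := Smo.unif h.semi h.smo fun i : Fin n => e.symm (Pi.single i 1)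
    refine ⟨N, hN, fun σ h1 h2 => ?_⟩
    ext i j
    have h3 := congrFun (hP σ h2 (e.symm (Pi.single j 1))) i
    have h4 : rh σ ∘ (Pi.single j 1 : Fin n → Om) = Pi.single j 1 := by
      funext k
      by_cases hk : k = j
      · subst hk; simp
      · simp [hk]
    rw [hb σ h1 h2, e.apply_symm_apply, h4, Matrix.mulVec_single_one] at h3
    rw [Matrix.one_apply, ← Pi.single_apply]
    exact h3.symm

theorem Co.inv' (h : Co H P) {σ : Gq} (hσ : σ ∈ H) : P σ * (P σ)⁻¹ = 1 :=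
  mul_eq_one_comm.mp (h.inv σ hσ)

theorem Co.cancel (h : Co H P) {σ : Gq} (hσ : σ ∈ H) {X Y : Matrix (Fin n) (Fin n) Om}
    (e : X * P σ = Y * P σ) : X = Y := by
  have h1 := congrArg (· * (P σ)⁻¹) e
  simpa only [mul_assoc, h.inv' hσ, mul_one] using h1

theorem map_map_rh (σ τ : Gq) (T : Matrix (Fin n) (Fin n) Om) :
    (T.map (rh τ)).map (rh σ) = T.map (rh (σ * τ)) := rfl

theorem map_rh_one (T : Matrix (Fin n) (Fin n) Om) : T.map (rh 1) = T := rfl

/-- The action on the matrices. -/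
theorem Co.ta (hn : 0 < n) (h : Co H P) :
    TA H fun σ (T : Matrix (Fin n) (Fin n) Om) => P σ * T.map (rh σ) * (P σ)⁻¹ := by
  have hne : Nonempty (Fin n) := ⟨⟨0, hn⟩⟩
  refine ⟨h.opn, fun σ hσ => ⟨fun X Y => ?_, fun t X => ?_, ?_⟩, fun σ hσ τ hτ X => ?_,
    fun X => ?_⟩
  · rw [Matrix.map_add _ (map_add (rh σ)), mul_add, add_mul]
  · have h1 : (t • X).map (rh σ) = σ t • X.map (rh σ) := by
      ext i j
      exact map_mul (rh σ) _ _
    rw [h1, mul_smul_comm, smul_mul_assoc]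
  · refine Function.bijective_iff_has_inverse.mpr
      ⟨fun Y => ((P σ)⁻¹ * Y * P σ).map (rh σ⁻¹), fun X => ?_, fun Y => ?_⟩
    · simp only [mul_assoc, h.inv σ hσ, mul_one]
      rw [← mul_assoc, h.inv σ hσ, one_mul, map_map_rh, inv_mul_cancel, map_rh_one]
    · simp only
      rw [map_map_rh, mul_inv_cancel, map_rh_one]
      simp only [mul_assoc, h.inv' hσ, mul_one]
      rw [← mul_assoc, h.inv' hσ, one_mul]
  · obtain ⟨c, hc⟩ := h.coc σ hσ τ hτ
    have h1 : (P τ).map (rh σ) * (P τ)⁻¹.map (rh σ) = 1 := by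
      rw [← Matrix.map_mul, h.inv' hτ, Matrix.map_one _ (map_zero _) (map_one _)]
    have h2 : (P τ)⁻¹.map (rh σ) * (P τ).map (rh σ) = 1 := mul_eq_one_comm.mp h1
    have hc0 : c ≠ 0 := by
      rintro rfl
      have h3 := congrArg (fun Y => (P σ)⁻¹ * Y * (P τ)⁻¹.map (rh σ)) hc
      simp only [zero_smul, mul_zero, zero_mul, mul_assoc, h1, mul_one, h.inv σ hσ] at h3
      exact one_ne_zero h3
    apply h.cancel (H.mul_mem hσ hτ)
    apply smul_right_injective _ hc0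
    simp only
    rw [mul_assoc _ (P (σ * τ))⁻¹, h.inv _ (H.mul_mem hσ hτ), mul_one, ← mul_smul_comm, ← hc,
      ← smul_mul_assoc, ← hc, Matrix.map_mul, Matrix.map_mul, map_map_rh]
    simp only [mul_assoc]
    rw [← mul_assoc (P σ)⁻¹, h.inv σ hσ, one_mul, h2, mul_one]
  · obtain ⟨N, hN, h1⟩ := h.smo
    obtain ⟨N', hN', h2⟩ := opn_fin fun q : Fin n × Fin n => X q.1 q.2
    refine ⟨N ⊓ N', hN.inf hN', fun σ h3 h4 => ?_⟩
    rw [h1 σ h3.1 h4, inv_one, one_mul, mul_one]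
    ext i j
    exact h2 σ h3.2 (i, j)

variable {E : Type} [Field E] [Algebra E Om]

/-- The algebra. -/
def alg (H : Subgroup Gq) (P : Gq → Matrix (Fin n) (Fin n) Om)
    (hj : ∀ x : E, Fx H (algebraMap E Om x)) : Subalgebra E (Matrix (Fin n) (Fin n) Om) where
  carrier := {T | ∀ σ ∈ H, P σ * T.map (rh σ) = T * P σ}
  mul_mem' := fun {X Y} hX hY σ hσ => by
    rw [Matrix.map_mul, ← mul_assoc, hX σ hσ, mul_assoc, hY σ hσ, mul_assoc]
  add_mem' := fun {X Y} hX hY σ hσ => by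
    rw [Matrix.map_add _ (map_add (rh σ)), mul_add, add_mul, hX σ hσ, hY σ hσ]
  algebraMap_mem' := fun c σ hσ => by
    have h1 : (algebraMap E (Matrix (Fin n) (Fin n) Om) c).map (rh σ) = algebraMap E _ c := by
      ext i j
      rw [Matrix.map_apply, Matrix.algebraMap_matrix_apply]
      split_ifs
      · exact hj c σ hσ
      · exact map_zero _
    rw [h1, Algebra.commutes]

theorem Co.form (hn : 0 < n) (h : Co H P) (hj : ∀ y, Fx H y ↔ ∃ x : E, algebraMap E Om x = y) :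
    ∃ (A : Type) (_ : Ring A) (_ : Algebra E A) (_ : FiniteDimensional E A)
      (_ : Algebra.IsCentral E A) (g : A →ₐ[E] Matrix (Fin n) (Fin n) Om),
      finrank E A = n * n ∧ Submodule.span Om (Set.range g) = ⊤ ∧
      ∀ σ ∈ H, ∀ a, P σ * (g a).map (rh σ) = g a * P σ := by
  have hne : Nonempty (Fin n) := ⟨⟨0, hn⟩⟩
  let A := alg H P fun x : E => (hj _).2 ⟨x, rfl⟩
  have hT := h.ta hn
  have hA : ∀ T : Matrix (Fin n) (Fin n) Om, T ∈ A ↔
      Fv H (fun σ (T : Matrix (Fin n) (Fin n) Om) => P σ * T.map (rh σ) * (P σ)⁻¹) T := by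
    intro T
    refine forall₂_congr fun σ hσ => ⟨fun h1 => ?_, fun h1 => ?_⟩
    · simp only
      rw [h1, mul_assoc, h.inv' hσ, mul_one]
    · simp only at h1
      conv_rhs => rw [← h1, mul_assoc, h.inv σ hσ, mul_one]
  obtain ⟨b, hb⟩ := hT.basis
  let b' : Fin (finrank Om (Matrix (Fin n) (Fin n) Om)) → A := fun i => ⟨b i, (hA _).2 (hb i)⟩
  have hli : LinearIndependent E b' :=
    LinearIndependent.of_comp A.val.toLinearMap (b.linearIndependent.restrict_scalars' E)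
  have hsp : ⊤ ≤ Submodule.span E (Set.range b') := by
    intro T _
    have h1 : ∀ i, ∃ c : E, algebraMap E Om c = b.repr T.1 i := fun i => (hj _).1 fun σ hσ => by
      exact (hT.repr b hb hσ T.1 i).symm.trans
        (congrArg (fun Y => b.repr Y i) ((hA _).1 T.2 σ hσ))
    choose c hc using h1
    have h2 : T = ∑ i, c i • b' i := by
      apply Subtype.ext
      change T.1 = A.val (∑ i, c i • b' i)
      rw [map_sum]
      conv_lhs => rw [← b.sum_repr T.1]
      refine Finset.sum_congr rfl fun i _ => ?_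
      rw [map_smul, ← hc, algebraMap_smul]
      rfl
    rw [h2]
    exact Submodule.sum_mem _ fun i _ => Submodule.smul_mem _ _ (Submodule.subset_span ⟨i, rfl⟩)
  let B := Basis.mk hli hsp
  have hspan : Submodule.span Om (Set.range A.val) = ⊤ := by
    rw [eq_top_iff, ← b.span_eq, Submodule.span_le]
    rintro _ ⟨i, rfl⟩
    exact Submodule.subset_span ⟨b' i, rfl⟩
  refine ⟨A, inferInstance, inferInstance, Module.Finite.of_basis B, ⟨fun z hz => ?_⟩, A.val, ?_,
    hspan, fun σ hσ a => a.2 σ hσ⟩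
  · rw [Subalgebra.mem_center_iff] at hz
    obtain ⟨t, ht⟩ := comm_scalar hspan (X := z.1) fun a => congrArg Subtype.val (hz a)
    obtain ⟨c, hc⟩ := (hj t).1 fun σ hσ => by
      have h1 := (hA _).1 z.2 σ hσ
      have h2 := (hT.semi σ hσ).smul t 1
      rw [ht] at h1
      simp only at h1 h2
      rw [h2, Matrix.map_one _ (map_zero _) (map_one _), mul_one, h.inv' hσ] at h1
      exact smul_left_injective Om one_ne_zero h1
    rw [Algebra.mem_bot]
    refine ⟨c, Subtype.ext ?_⟩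
    rw [ht, ← hc, algebraMap_smul]
    exact Algebra.algebraMap_eq_smul_one c
  · rw [Module.finrank_eq_card_basis B, Fintype.card_fin, Module.finrank_matrix, Fintype.card_fin,
      Module.finrank_self, mul_one]

theorem exists_pol {V : Type} [AddCommGroup V] [Module Om V] {N : V → Om} (hN : Pol N)
    (e : V ≃ₗ[Om] (Fin n → Om)) :
    ∃ Q : MvPolynomial (Fin n) Om, ∀ x, N x = MvPolynomial.eval (e x) Q := by
  induction hN using Algebra.adjoin_induction with
  | mem x hx =>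
    obtain ⟨l, rfl⟩ := hx
    refine ⟨∑ i, MvPolynomial.C (l (e.symm (Pi.single i 1))) * MvPolynomial.X i, fun x => ?_⟩
    have h1 : x = ∑ j, e x j • e.symm (Pi.single j 1) := by
      apply e.injective
      rw [map_sum]
      conv_lhs => rw [pi_eq_sum_univ' (e x)]
      refine Finset.sum_congr rfl fun j _ => ?_
      rw [map_smul, e.apply_symm_apply]
    change l x = _
    conv_lhs => rw [h1]
    rw [map_sum, map_sum]
    refine Finset.sum_congr rfl fun j _ => ?_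
    rw [map_smul, map_mul, MvPolynomial.eval_C, MvPolynomial.eval_X, smul_eq_mul, mul_comm]
  | algebraMap c => exact ⟨MvPolynomial.C c, fun x => by rw [MvPolynomial.eval_C]; rfl⟩
  | add x y _ _ hx hy =>
    obtain ⟨Q, hQ⟩ := hx
    obtain ⟨Q', hQ'⟩ := hy
    exact ⟨Q + Q', fun x => by rw [map_add, Pi.add_apply, hQ, hQ']⟩
  | mul x y _ _ hx hy =>
    obtain ⟨Q, hQ⟩ := hx
    obtain ⟨Q', hQ'⟩ := hy
    exact ⟨Q * Q', fun x => by rw [map_mul, Pi.mul_apply, hQ, hQ']⟩

end Vale.Agent.P011Z.Cl.Br0x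

end
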